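import Vale.Agent.P184.AG.Loc
import Vale.Agent.P184.H250.AsmB

/-!
# Elements which are locally tame or detected by exact groups
-/

open scoped Pointwise

namespace Vale.Agent.P184.AG

open Vale.Agent.P184.Un Vale.Agent.P184.H57 Vale.Agent.P184.H250

universe u v

/-- Pull back of the character. -/
theorem psiTame_comap {G H : Type*} [Group G] [Group H] (f : H →* G) {y : H}
    (h : PsiTame (f y)) : PsiTame y := by
  classical
  obtain ⟨ψ, h1, h2, h3⟩ := h
  refine ⟨fun c => ψ (f c), fun g k hg hk => ?_, h2, fun S => ?_⟩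
  · change ψ (f (g * k)) = ψ (f g) + ψ (f k)
    rw [map_mul]
    exact h1 _ _ (hg.map f) (hk.map f)
  · obtain ⟨w, hw, hb, hg⟩ := h3 (S.image f)
    refine ⟨w, hw, fun m c p hc hm => hb m (f c) (f p) (hc.map f) ?_, hg⟩
    have h4 : f (p⁻¹ * c * p) ∈ (f : H → G) '' ((S : Set H) ^ m) := Set.mem_image_of_mem f hm
    rw [Set.image_pow, ← Finset.coe_image] at h4
    simpa using h4

theorem uvAt_of_psiTame {G : Type u} [Group G] {x : G} (h : PsiTame x) : UVAt x :=
  fun _ _ g y hy => vanishesAt_of_psiTame (psiTame_comap g (by rwa [hy]))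

/-- For each finite subset `S` of `G`, there is a map `l` from `G` to a group `L`, multiplicative
on `S`, such that the centralizer of `l x` has a tame character, or `L` has property A and `l x`
has infinite order. -/
def LocGood {G : Type u} [Group G] (x : G) : Prop :=
  ∀ S : Finset G, ∃ (L : Type u) (_ : Group L) (l : G → L),
    (∀ a ∈ S, ∀ b ∈ S, l (a * b) = l a * l b) ∧
      (PsiTame (l x) ∨ (PropertyA L ∧ ¬ IsOfFinOrder (l x)))

theorem uvAt_of_locGood {G : Type u} [Group G] {x : G} (h : LocGood x) : UVAt x := by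
  refine uvAt_of_loc x fun S => ?_
  obtain ⟨L, hL, l, hl, hx | ⟨hA, hx⟩⟩ := h S
  · exact ⟨L, hL, l, hl, uvAt_of_psiTame hx⟩
  · exact ⟨L, hL, l, hl, fun H _ g y hy => vanishesAt_of_propertyA hA g y (by rwa [hy])⟩

theorem l1Bass_of_locGood {G : Type u} [Group G]
    (hf : ∀ S : Finset G, {C : ConjClasses (Subgroup.closure (S : Set G)) |
      ∀ g ∈ C.carrier, IsOfFinOrder g}.Finite)
    (h : ∀ x : G, ¬ IsOfFinOrder x → LocGood x) : L1Bass G :=
  l1Bass_of_uv hf fun x hx => uvAt_of_locGood (h x hx)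

end Vale.Agent.P184.AG
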