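import Vale.Agent.P184.H38.CSDef

/-!
# Definitions for the statement on the traces over `ℓ¹(G)` for all groups `G`
-/

open scoped Pointwise

namespace Vale.Agent.P184.H115

open Vale.Agent.P184.Un

/-- The sum of the norms of the entries. -/
noncomputable def N0 {G : Type*} [Group G] {q : ℕ} (e : Mat G q) : ℝ :=
  ∑ i, ∑ j, ∑' g, ‖e i j g‖

/-- The half moment. -/
noncomputable def N1 {G : Type*} [Group G] {q : ℕ} (e : Mat G q) (L : G → ℝ) : ℝ :=
  ∑ i, ∑ j, ∑' g, ‖e i j g‖ * √(L g)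

/-- The balls of the length function `N` are finite and its growth is doubling. -/
def Dbl {H : Type*} (N : H → ℝ) (K : ℝ) : Prop :=
  (∀ r : ℝ, {h : H | N h ≤ r}.Finite) ∧
    ∀ r : ℝ, 1 ≤ r → ({h : H | N h ≤ 2 * r}.ncard : ℝ) ≤ K * {h : H | N h ≤ r}.ncard

/-- There is a length function on the centralizer of `x` with finite balls and doubling growth,
for which `x` is at most polynomially distorted, and which is at most `w m` at `c` if a conjugate
of `c` is a product of `m` elements of `S`, where `w m` is less than any `exp (ε log² m)`. -/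
def DblCen {G : Type*} [Group G] (x : G) : Prop :=
  ∃ (y : Cen x) (N : Cen x → ℝ) (K C : ℝ) (d : ℕ), (y : G) = x ∧ IsLen N ∧ Dbl N K ∧
    (∀ k : ℤ, |(k : ℝ)| ≤ C * (1 + N (y ^ k)) ^ d) ∧
    ∀ S : Finset G, ∃ w : ℕ → ℝ, Monotone w ∧
      (∀ (m : ℕ) (c : Cen x) (p : G), p⁻¹ * (c : G) * p ∈ (S : Set G) ^ m → N c ≤ w m) ∧
      ∀ ε : ℝ, 0 < ε → ∃ m₀ : ℕ, ∀ m : ℕ, m₀ ≤ m → w m ≤ Real.exp (ε * Real.log m ^ 2)

end Vale.Agent.P184.H115

namespace Vale.Agent.P184.H174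

open Vale.Agent.P184.Un

universe u

/-- `x` is separated from every finite set of elements which are not conjugate to it by a
homomorphism `ρ` to a finite group in which the mean of the squares of the lengths (with respect to
the image of `S`) of the classes of the generators of `⟨ρ x⟩` is at least
`A (1 + log |C(ρ x)|)`. -/
def GalFar {G : Type u} [Group G] (S : Finset G) (A : ℝ) (x : G) : Prop :=
  ∀ F : Finset G, (∀ f ∈ F, ¬ IsConj x f) →
    ∃ (Q : Type) (_ : Group Q) (_ : Finite Q) (ρ₀ : G →* Q) (D : ℕ → ℕ),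
      (∀ f ∈ F, ¬ IsConj (ρ₀ x) (ρ₀ f)) ∧
      (∀ a < orderOf (ρ₀ x), (orderOf (ρ₀ x)).Coprime a → ∀ l : List G, l.length < D a →
        (∀ s ∈ l, s ∈ S) → ¬ IsConj (ρ₀ x ^ a) (ρ₀ l.prod)) ∧
      A * (1 + Real.log (Nat.card (Subgroup.centralizer {ρ₀ x}))) * (orderOf (ρ₀ x)).totient ≤
        ∑ a ∈ (Finset.range (orderOf (ρ₀ x))).filter (Nat.Coprime (orderOf (ρ₀ x))),
          (D a : ℝ) ^ 2

end Vale.Agent.P184.H174

namespace Vale.Agent.P184.AG

open Vale.Agent.P184.Un Vale.Agent.P184.H38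

universe u

/-- The condition in the definition of core-slow elements for one `S`, `δ`, `ε`. -/
def CoreSlowAt {G : Type*} [Group G] (S : Finset G) (δ ε : ℝ) (x : G) : Prop :=
  ∀ R₀ : ℕ, ∃ R : ℕ, R₀ ≤ R ∧ ∃ (D : Subgroup G) (n : ℕ) (ζ u : G → Fin n → ℂ),
    x ∈ D ∧ D ≤ Cen x ∧ CoAmenable (Cen x) D ∧ (∀ d ∈ D, ∀ j, ‖ζ d j‖ = 1) ∧
    (∀ j, ζ x j ≠ 1) ∧
    (∀ d ∈ D, ∀ p, p⁻¹ * x * p ∈ (S : Set G) ^ R → ∀ j, u (d * p) j = ζ d j * u p j) ∧
    (∀ p, p⁻¹ * x * p ∈ (S : Set G) ^ R → ∑ j, ‖u p j‖ ^ 2 = 1) ∧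
    (∀ p, p⁻¹ * x * p ∈ (S : Set G) ^ R → ∀ s ∈ S,
      (p * s)⁻¹ * x * (p * s) ∈ (S : Set G) ^ R → ∑ j, ‖u (p * s) j - u p j‖ ^ 2 ≤ δ) ∧
    ∏ j, (2 / ‖1 - ζ x j‖) ≤ Real.exp (ε * R ^ 2)

/-- For each finite subset `S` of `G`, there is a map `l` from `G` to a group `L`, multiplicative
on `S`, such that `l x` is core-slow, or `L` has property A and `l x` has infinite order. -/
def LocSlow {G : Type u} [Group G] (x : G) : Prop :=
  ∀ S : Finset G, ∃ (L : Type u) (_ : Group L) (l : G → L),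
    (∀ a ∈ S, ∀ b ∈ S, l (a * b) = l a * l b) ∧
      (CoreSlow (l x) ∨ (PropertyA L ∧ ¬ IsOfFinOrder (l x)))

/-- For all finite symmetric sets `S` and all `δ`, `ε`, `A`, all classes of elements of finite
order of the subgroup generated by `S`, up to finitely many, are slow or far. -/
def TorSoft (G : Type u) [Group G] : Prop :=
  ∀ S : Finset G, 1 ∈ S → (∀ s ∈ S, s⁻¹ ∈ S) → ∀ δ : ℝ, 0 < δ → ∀ ε : ℝ, 0 < ε → ∀ A : ℝ,
    {C : ConjClasses G | ∃ x ∈ Subgroup.closure (S : Set G), IsOfFinOrder x ∧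
      ConjClasses.mk x = C ∧ ¬ (CoreSlowAt S δ ε x ∨ H174.GalFar S A x)}.Finite

end Vale.Agent.P184.AG
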