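import Vale.Agent.P184.AG.Pull
import Vale.Agent.P184.AG.Psi
import Vale.Agent.P184.H174.Tor

/-!
# Elements which are locally core-slow or detected by exact groups
-/

open scoped Pointwise

namespace Vale.Agent.P184.AG

open Vale.Agent.P184.Un Vale.Agent.P184.H57 Vale.Agent.P184.H38

universe u v

/-- Core-slow elements are locally core-slow. -/
theorem locSlow_of_coreSlow {G : Type u} [Group G] {x : G} (h : CoreSlow x) : LocSlow x :=
  fun _ => ⟨G, inferInstance, id, fun _ _ _ _ => rfl, Or.inl h⟩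

/-- **Universal vanishing at locally core-slow elements.** -/
theorem uvAt_of_locSlow {G : Type u} [Group G] {x : G} (h : LocSlow x) : UVAt x := by
  refine uvAt_of_loc x fun S => ?_
  obtain ⟨L, hL, l, hl, hx | ⟨hA, hx⟩⟩ := h S
  · exact ⟨L, hL, l, hl, uvAt_of_coreSlow hx⟩
  · exact ⟨L, hL, l, hl, fun H _ g y hy => vanishesAt_of_propertyA hA g y (by rwa [hy])⟩

theorem vanishesAt_of_uvAt {G : Type u} [Group G] {x : G} (h : UVAt x) : VanishesAt x :=
  h G (MonoidHom.id G) x rfl

theorem torSoft_of_torFar {G : Type u} [Group G] (h : H174.TorFar G) : TorSoft G :=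
  fun S h1 hS _ _ _ _ A => (h S h1 hS A).subset
    fun _ ⟨x, h2, h3, h4, h5⟩ => ⟨x, h2, h3, h4, fun h6 => h5 (Or.inr h6)⟩

/-- **The `ℓ¹`-Bass conjecture**, if the traces vanish at the elements of infinite order, and the
torsion elements are slow or far up to finitely many classes. -/
theorem l1Bass_of_torSoft {G : Type u} [Group G] (hinf : ∀ x : G, ¬ IsOfFinOrder x → VanishesAt x)
    (htor : TorSoft G) : L1Bass G := by
  classical
  intro q e he
  obtain ⟨S, f, -, h1, h3, h4, h5, h6, h8⟩ := H250.exists_decay_moment e he ∅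
  obtain ⟨A, hA⟩ := H174.exists_far h4 h3 h6 h8
  obtain ⟨δ, hδ, ε, hε, hthr⟩ := exists_thr h4 h6 h8
  refine ⟨(htor S h1 h3 δ hδ ε hε A).toFinset, fun C hC g hg => ?_, fun C hC => ?_⟩
  · obtain ⟨x, -, hx, rfl, -⟩ := (htor S h1 h3 δ hδ ε hε A).mem_toFinset.1 hC
    rw [ConjClasses.mem_carrier_iff_mk_eq, ConjClasses.mk_eq_mk_iff_isConj] at hg
    obtain ⟨c, hc⟩ := isConj_iff.1 hg.symm
    rw [← hc]
    exact (MulAut.conj c).toMonoidHom.isOfFinOrder hx
  · by_cases hCx : ∃ x ∈ C.carrier, x ∈ Subgroup.closure (S : Set G)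
    · obtain ⟨x, hxC, hxS⟩ := hCx
      rw [ConjClasses.mem_carrier_iff_mk_eq] at hxC
      by_cases hx : IsOfFinOrder x
      · rw [← h5, ← hxC]
        by_contra hne
        refine hC ((htor S h1 h3 δ hδ ε hε A).mem_toFinset.2 ⟨x, hxS, hx, hxC, fun h => hne ?_⟩)
        rcases h with h | h
        · exact hthr G (MonoidHom.id G) S h1 h3 (fun s hs => hs) x h
        · exact hA x h
      · rw [← hxC]
        exact hinf x hx q e he
    · rw [← h5]
      unfold tau
      refine (tsum_congr fun g => ?_).trans tsum_zero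
      refine Finset.sum_eq_zero fun i _ => h6 i i g fun ⟨n, hn⟩ => hCx ⟨g, g.2, ?_⟩
      obtain ⟨l, -, l2, l3⟩ := hn
      rw [← l3]
      exact Subgroup.list_prod_mem _ fun y hy => Subgroup.subset_closure (l2 y hy)

end Vale.Agent.P184.AG
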