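import Vale.Agent.P184.Ex.LimU

/-!
# From elements to groups: finitely many classes of elements of finite order in the finitely
generated subgroups
-/

open scoped Pointwise

namespace Vale.Agent.P184.AG

open Vale.Agent.P184.Un Vale.Agent.P184.H57

universe u v

/-- If the traces vanish universally at the elements of infinite order, and the finitely generated
subgroups have finitely many classes of elements of finite order, then `G` satisfies the
`ℓ¹`-Bass conjecture. -/
theorem l1Bass_of_uv {G : Type u} [Group G]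
    (hf : ∀ S : Finset G, {C : ConjClasses (Subgroup.closure (S : Set G)) |
      ∀ g ∈ C.carrier, IsOfFinOrder g}.Finite)
    (h : ∀ x : G, ¬ IsOfFinOrder x → UVAt x) : L1Bass G := by
  classical
  intro q e he
  obtain ⟨S, hS⟩ := transfer.{u, u} e he
  set K : Subgroup G := Subgroup.closure (S : Set G) with hK
  set s : G → K := fun g => if hg : g ∈ K then ⟨g, hg⟩ else 1 with hs
  have hmem : ∀ x ∈ S, x ∈ K := fun x hx => Subgroup.subset_closure hx
  have hs1 : ∀ g (hg : g ∈ K), s g = ⟨g, hg⟩ := fun g hg => by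
    rw [hs]
    dsimp only
    rw [dif_pos hg]
  obtain ⟨b, b1, b2⟩ := hS K K.subtype s (fun x hx => by rw [hs1 x (hmem x hx)]; rfl)
    (fun x hx y hy _ => by
      rw [hs1 x (hmem x hx), hs1 y (hmem y hy), hs1 _ (K.mul_mem (hmem x hx) (hmem y hy))]
      rfl)
  refine ⟨(hf S).toFinset.image (ConjClasses.map K.subtype), fun C hC g hg => ?_, fun C hC => ?_⟩
  · obtain ⟨D, hD, rfl⟩ := Finset.mem_image.1 hC
    obtain ⟨y, rfl⟩ := ConjClasses.exists_rep D
    have h1 : IsOfFinOrder y := (hf S).mem_toFinset.1 hD y ConjClasses.mem_carrier_mk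
    have h2 : IsConj g (K.subtype y) :=
      ConjClasses.mk_eq_mk_iff_isConj.1 (ConjClasses.mem_carrier_iff_mk_eq.1 hg)
    obtain ⟨c, hc⟩ := isConj_iff.1 h2.symm
    have h3 : IsOfFinOrder (MulAut.conj c (K.subtype y)) :=
      (MulAut.conj c).toMonoidHom.isOfFinOrder (K.subtype.isOfFinOrder h1)
    rwa [MulAut.conj_apply, hc] at h3
  · rw [b2]
    refine Lim.regroup K.subtype C (trace_sm b1.1) fun y hy => ?_
    have hy1 : ¬ IsOfFinOrder y := fun hy1 => by
      refine hC (Finset.mem_image.2 ⟨ConjClasses.mk y, (hf S).mem_toFinset.2 ?_, hy⟩)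
      intro z hz
      rw [ConjClasses.mem_carrier_iff_mk_eq] at hz
      obtain ⟨c, rfl⟩ := isConj_iff.1 (ConjClasses.mk_eq_mk_iff_isConj.1 hz).symm
      exact (MulAut.conj c).toMonoidHom.isOfFinOrder hy1
    have hy2 : ¬ IsOfFinOrder (K.subtype y) := fun h2 => hy1 (Submonoid.isOfFinOrder_coe.1 h2)
    exact h _ hy2 K K.subtype y rfl q b b1

end Vale.Agent.P184.AG
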