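import Vale.Agent.P184.AG.Loc
import Vale.Agent.P184.H38.CS
import Vale.Agent.P184.AG.Defs

/-!
# Core-slow elements: pull back to other groups
-/

open scoped Pointwise

noncomputable section

namespace Vale.Agent.P184.AG

open Vale.Agent.P184.Un Vale.Agent.P184.H57 Vale.Agent.P184.H505 Vale.Agent.P184.H38

universe u v

/-- The pull back of a twisted functional. -/
def comapPf {G H V : Type*} [Group G] [Group H] [AddCommGroup V] (f : H →* G) {y : H}
    (P : PfData G V (f y)) : PfData H V y where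
  v := fun p => P.v (f p)
  Pf := P.Pf
  nil := P.nil
  sub := P.sub
  sq := fun A p B => P.sq A (f p) B
  cyc := fun p L hL => by
    have h := P.cyc (f p) (L.map f) (by simpa using hL)
    rw [List.map_map] at h
    rw [map_mul]
    exact h
  inv := fun h hh L => by
    have h1 := P.inv (f h) (by rw [← map_mul, ← map_mul, hh]) (L.map f)
    have e1 : (L.map (h * ·)).map (fun p => P.v (f p)) = ((L.map f).map (f h * ·)).map P.v := by
      rw [List.map_map, List.map_map, List.map_map]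
      refine List.map_congr_left fun p _ => ?_
      simp only [Function.comp_apply, map_mul]
    have e2 : L.map (fun p => P.v (f p)) = (L.map f).map P.v := by
      rw [List.map_map]
      rfl
    rw [e1, e2]
    exact h1
  bd := fun n => by
    obtain ⟨C, hC⟩ := P.bd n
    refine ⟨C, fun L hL => ?_⟩
    have h := hC (L.map f) (by simpa using hL)
    rwa [List.map_map] at h

section Field

variable {G : Type*} [Group G] {S : Set G} {R : ℕ} {x : G} {n : ℕ} {φ : Fin n → ℝ}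
  {u : G → Fin n → ℂ} {D : Subgroup G} {ζ : G → Fin n → ℂ} {δ : ℝ}

/-- The functional obtained from one field, with its bound on words. -/
theorem exists_pf (hx : x ∈ D) (hm : CoAmenable (Cen x) D)
    (hφ : ∀ j, 0 < Real.sin (φ j / 2))
    (hφζ : ∀ j, Complex.exp (φ j * Complex.I) = ζ x j)
    (h1 : (1 : G) ∈ S) (hS : ∀ s ∈ S, s⁻¹ ∈ S) (hR : 1 ≤ R)
    (hu1 : ∀ p, p⁻¹ * x * p ∈ S ^ R → ∑ j, ‖u p j‖ ^ 2 = 1) (hD : D ≤ Cen x)
    (hζ : ∀ d ∈ D, ∀ j, ‖ζ d j‖ = 1)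
    (hue : ∀ d ∈ D, ∀ p, p⁻¹ * x * p ∈ S ^ R → ∀ j, u (d * p) j = ζ d j * u p j)
    (hδ : 0 ≤ δ) (hus : ∀ p, p⁻¹ * x * p ∈ S ^ R → ∀ s ∈ S,
      (p * s)⁻¹ * x * (p * s) ∈ S ^ R → ∑ j, ‖u (p * s) j - u p j‖ ^ 2 ≤ δ) (k : ℕ) :
    ∃ P : PfData G (G →₀ ℝ) x, ∀ T : List (G × G × G), T.length = k →
      |P.Pf (T.flatMap fun t => [P.v t.1 - P.v t.2.1, P.v t.2.1 - P.v t.2.2])| ≤
        (∏ j, 1 / Real.sin (φ j / 2)) * (√δ + 7 / R + √(100 / R * √(2 * k))) ^ (2 * k) *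
          (T.map fun t => H174.len S R (t.1⁻¹ * t.2.1) * H174.len S R (t.2.1⁻¹ * t.2.2)).prod := by
  have hR0 := H174.R_pos hR
  have hs0 : 0 ≤ √δ := Real.sqrt_nonneg _
  obtain ⟨P, hPv, hP⟩ := mean_pf (BM S R x φ) (VV S R x u) x D hx hD hm
    (fun p => BM_self h1 hR hu1 p)
    (fun p q => BM_cyc h1 hR hD hue hx (fun j => (hφ j).ne') hφζ p q)
    (fun d hd p q => BM_inv h1 hR hD hζ hue hd p q) _ (fun p q => BM_abs h1 hR hu1 hφ p q)
  have hinv : ∀ p q : G, H174.len S R (q⁻¹ * p) = H174.len S R (p⁻¹ * q) := fun p q => by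
    rw [← H174.len_inv hS, mul_inv_rev, inv_inv]
  refine ⟨P, fun T hT => ?_⟩
  have e1 : (T.flatMap fun t => [P.v t.1 - P.v t.2.1, P.v t.2.1 - P.v t.2.2]) =
      (T.flatMap fun t => [(t.1, t.2.1), (t.2.1, t.2.2)]).map
        fun z : G × G => P.v z.1 - P.v z.2 := by
    rw [flat_map]
  have e2 := flat_prod T (fun t => (t.1, t.2.1)) (fun t => (t.2.1, t.2.2))
    (fun z : G × G => H174.len S R (z.1⁻¹ * z.2))
  rw [e1, ← e2]
  refine hP _ _ fun c _ => ?_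
  have hb := flat_E (frS (H174.kA S R x)) φ hφ (fun p => VV S R x u (c * p))
    (fun p q => H174.len S R (p⁻¹ * q)) (fun p q => H174.len_nonneg _) (√δ + 7 / R) (100 / R)
    (by positivity) (by positivity)
    (fun p q => by
      have h2 := UU_lip h1 hS hR hu1 hδ hus (c * q) (q⁻¹ * p)
      rw [mul_assoc, mul_inv_cancel_left, hinv] at h2
      exact h2)
    (fun p p' q q' => by
      have h2 := H174.sL (x := x) hS hR (c * p') (p'⁻¹ * p) (c * q') (q'⁻¹ * q)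
      rw [mul_assoc c, mul_inv_cancel_left, mul_assoc c, mul_inv_cancel_left, hinv p p',
        hinv q q'] at h2
      exact h2)
    (2 * k) (T.flatMap fun t => [(t.1, t.2.1), (t.2.1, t.2.2)]) (by rw [flat_length, hT])
  push_cast at hb
  exact hb

/-- The bound of the traces obtained from one field, in a group mapped to `G`. -/
theorem tau_le_comap {H : Type*} [Group H] (g : H →* G) {y : H} (hy : g y = x)
    (hx : x ∈ D) (hm : CoAmenable (Cen x) D)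
    (hφ : ∀ j, 0 < Real.sin (φ j / 2))
    (hφζ : ∀ j, Complex.exp (φ j * Complex.I) = ζ x j)
    (h1 : (1 : G) ∈ S) (hS : ∀ s ∈ S, s⁻¹ ∈ S) (hR : 1 ≤ R)
    (hu1 : ∀ p, p⁻¹ * x * p ∈ S ^ R → ∑ j, ‖u p j‖ ^ 2 = 1) (hD : D ≤ Cen x)
    (hζ : ∀ d ∈ D, ∀ j, ‖ζ d j‖ = 1)
    (hue : ∀ d ∈ D, ∀ p, p⁻¹ * x * p ∈ S ^ R → ∀ j, u (d * p) j = ζ d j * u p j)
    (hδ : 0 ≤ δ) (hus : ∀ p, p⁻¹ * x * p ∈ S ^ R → ∀ s ∈ S,
      (p * s)⁻¹ * x * (p * s) ∈ S ^ R → ∑ j, ‖u (p * s) j - u p j‖ ^ 2 ≤ δ)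
    {q : ℕ} (f : Mat H q) (hf : IsIdem f)
    (hf1 : ∀ i j, Summable fun h => ‖f i j h‖ * H174.len S R (g h)) (k : ℕ) :
    ‖tau (ConjClasses.mk y) f‖ ≤ (∏ j, 1 / Real.sin (φ j / 2)) *
      (√δ + 7 / R + √(100 / R * √(2 * k))) ^ (2 * k) *
      (∑ i, ∑ j, ∑' h, ‖f i j h‖) ^ (k + 1) *
      (∑ i, ∑ j, ∑' h, ‖f i j h‖ * H174.len S R (g h)) ^ (2 * k) := by
  subst hy
  have hR0 := H174.R_pos hR
  have hs0 : 0 ≤ √δ := Real.sqrt_nonneg _
  obtain ⟨P, hP⟩ := exists_pf hx hm hφ hφζ h1 hS hR hu1 hD hζ hue hδ hus k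
  have hP0 : 0 ≤ ∏ j : Fin n, 1 / Real.sin (φ j / 2) :=
    Finset.prod_nonneg fun j _ => (div_pos one_pos (hφ _)).le
  refine (comapPf g P).bound f hf (fun h => H174.len S R (g h)) (fun h => H174.len_nonneg _) hf1 k
    ((∏ j, 1 / Real.sin (φ j / 2)) * (√δ + 7 / R + √(100 / R * √(2 * k))) ^ (2 * k))
    (mul_nonneg hP0 (by positivity)) fun T hT => ?_
  have h2 := hP (T.map fun t => (g t.1, g t.2.1, g t.2.2)) (by simpa using hT)
  rw [List.flatMap_map, List.map_map] at h2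
  refine h2.trans (le_of_eq ?_)
  congr 2
  refine List.map_congr_left fun t _ => ?_
  simp only [Function.comp_apply, map_mul, map_inv]

end Field

section Main

/-- Word lengths decrease under homomorphisms. -/
theorem len_comap_le {G H : Type*} [Group G] [Group H] (g : H →* G)
    (S : Finset H) (T : Finset G) (hT : ∀ s ∈ S, g s ∈ T) (R : ℕ) {h : H}
    (hh : ∃ n, H250.IsWd S n h) :
    H174.len (T : Set G) R (g h) ≤ (H250.wl S h : ℝ) := by
  obtain ⟨l, h1, h2, h3⟩ := H250.wl_spec hh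
  have h4 : H250.IsWd T (H250.wl S h) (g h) := by
    refine ⟨l.map g, by rw [List.length_map, h1], fun y hy => ?_, ?_⟩
    · obtain ⟨z, hz, rfl⟩ := List.mem_map.1 hy
      exact hT z (h2 z hz)
    · rw [← h3, map_list_prod]
  rw [H174.len_of_gen (H250.gen_iff.2 ⟨_, h4⟩)]
  exact_mod_cast H174.wl_le (H250.isWd_iff.1 h4)

/-- The choice of the parameters. -/
theorem numeric {N0 N1 N2 a0 A P c : ℝ} {R k : ℕ} (hN00 : 0 ≤ N0) (hN20 : 0 ≤ N2)
    (hN21 : N2 ≤ N1) (ha00 : 0 < a0) (hA : N0 * N1 ^ 2 ≤ A)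
    (hAa : A * (2 * a0) ^ 2 = Real.exp (-2)) (hc : c = a0 ^ 4 / 20000) (hR1 : 1 ≤ R)
    (hRa : 14 / a0 ≤ R) (hk : k = ⌊c * R ^ 2⌋₊) (hP0 : 0 ≤ P) (hP : P ≤ Real.exp (c * R ^ 2)) :
    P * (a0 / 2 + 7 / R + √(100 / R * √(2 * k))) ^ (2 * k) * N0 ^ (k + 1) * N2 ^ (2 * k) ≤
      N0 * Real.exp 2 * 1 * R * Real.exp (-(c * R ^ 2)) := by
  have hR0 : (0 : ℝ) < R := by exact_mod_cast hR1
  have hR1' : (1 : ℝ) ≤ R := by exact_mod_cast hR1
  have hc0 : 0 < c := by rw [hc]; positivity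
  have hkle : (k : ℝ) ≤ c * R ^ 2 := by rw [hk]; exact Nat.floor_le (by positivity)
  have hkge : c * R ^ 2 - 1 ≤ k := by
    have := Nat.lt_floor_add_one (c * (R : ℝ) ^ 2)
    rw [← hk] at this
    linarith
  -- the first part is at most `a0`
  have hp1 : a0 / 2 + 7 / (R : ℝ) ≤ a0 := by
    have : 7 / (R : ℝ) ≤ a0 / 2 := by
      rw [div_le_iff₀ hR0]
      rw [div_le_iff₀ ha00] at hRa
      linarith
    linarith
  -- the second part is at most `a0`
  have hp2 : √(100 / R * √(2 * k)) ≤ a0 := by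
    rw [Real.sqrt_le_left ha00.le]
    have h2 : √(2 * (k : ℝ)) ≤ a0 ^ 2 * R / 100 := by
      rw [Real.sqrt_le_left (by positivity)]
      calc 2 * (k : ℝ) ≤ 2 * (c * R ^ 2) := by linarith
        _ = (a0 ^ 2 * R / 100) ^ 2 := by
          rw [hc]
          ring
    calc 100 / (R : ℝ) * √(2 * k) ≤ 100 / R * (a0 ^ 2 * R / 100) := by gcongr
      _ = a0 ^ 2 := by field_simp
  set X := a0 / 2 + 7 / (R : ℝ) + √(100 / R * √(2 * k)) with hX
  have hX0 : 0 ≤ X := by positivity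
  have hX2 : X ≤ 2 * a0 := by rw [hX]; linarith
  have hstep : N0 * N1 ^ 2 * X ^ 2 ≤ Real.exp (-2) := by
    rw [← hAa]
    have h2 : X ^ 2 ≤ (2 * a0) ^ 2 := pow_le_pow_left₀ hX0 hX2 2
    exact mul_le_mul hA h2 (sq_nonneg _) ((mul_nonneg hN00 (sq_nonneg _)).trans hA)
  have hN10 : 0 ≤ N1 := hN20.trans hN21
  calc P * X ^ (2 * k) * N0 ^ (k + 1) * N2 ^ (2 * k)
      ≤ P * X ^ (2 * k) * N0 ^ (k + 1) * N1 ^ (2 * k) := by gcongr
    _ = P * (N0 * (N0 * N1 ^ 2 * X ^ 2) ^ k) := by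
        rw [pow_succ N0 k, pow_mul N1 2 k, pow_mul X 2 k, mul_pow, mul_pow]
        ring
    _ ≤ Real.exp (c * R ^ 2) * (N0 * Real.exp (-2) ^ k) := by
        refine mul_le_mul hP ?_ (by positivity) (Real.exp_pos _).le
        exact mul_le_mul_of_nonneg_left (pow_le_pow_left₀ (by positivity) hstep k) hN00
    _ = N0 * Real.exp (c * R ^ 2 + -2 * k) := by
        rw [← Real.exp_nat_mul, Real.exp_add, mul_comm (k : ℝ) (-2)]
        ring
    _ ≤ N0 * Real.exp (2 + -(c * R ^ 2)) := by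
        refine mul_le_mul_of_nonneg_left (Real.exp_le_exp.2 ?_) hN00
        linarith
    _ = N0 * Real.exp 2 * 1 * 1 * Real.exp (-(c * R ^ 2)) := by
        rw [Real.exp_add]
        ring
    _ ≤ N0 * Real.exp 2 * 1 * R * Real.exp (-(c * R ^ 2)) := by
        gcongr

theorem coreSlowAt_of_coreSlow {G : Type*} [Group G] {x : G} (h : CoreSlow x) {S : Finset G} (h1 : 1 ∈ S)
    (hS : ∀ s ∈ S, s⁻¹ ∈ S) {δ ε : ℝ} (hδ : 0 < δ) (hε : 0 < ε) : CoreSlowAt S δ ε x :=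
  fun R₀ => h S h1 hS δ hδ ε hε R₀

/-- For every idempotent there are `δ`, `ε` such that the traces vanish at all elements over
elements satisfying the condition for `δ`, `ε`. -/
theorem exists_thr {H : Type u} [Group H] {q : ℕ} {f : Mat H q} (hf : IsIdem f) {S : Finset H}
    (hf0 : ∀ i j g, (¬ ∃ n, H250.IsWd S n g) → f i j g = 0)
    (hf1 : ∀ i j, Summable fun g => ‖f i j g‖ * (H250.wl S g : ℝ)) :
    ∃ δ : ℝ, 0 < δ ∧ ∃ ε : ℝ, 0 < ε ∧ ∀ (G : Type u) [Group G] (g : H →* G) (T : Finset G),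
      1 ∈ T → (∀ s ∈ T, s⁻¹ ∈ T) → (∀ s ∈ S, g s ∈ T) → ∀ y : H, CoreSlowAt T δ ε (g y) →
        tau (ConjClasses.mk y) f = 0 := by
  classical
  set N0 : ℝ := ∑ i, ∑ j, ∑' g, ‖f i j g‖ with hN0
  set N1 : ℝ := ∑ i, ∑ j, ∑' g, ‖f i j g‖ * (H250.wl S g : ℝ) with hN1
  have hN00 : 0 ≤ N0 := Finset.sum_nonneg fun i _ => Finset.sum_nonneg fun j _ =>
    tsum_nonneg fun g => norm_nonneg _
  have hN10 : 0 ≤ N1 := Finset.sum_nonneg fun i _ => Finset.sum_nonneg fun j _ =>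
    tsum_nonneg fun g => by positivity
  set A : ℝ := N0 * N1 ^ 2 + 1 with hA
  have hA1 : 1 ≤ A := by
    rw [hA]
    have : 0 ≤ N0 * N1 ^ 2 := by positivity
    linarith
  -- the size `a0`: `A (2 a0)² = e⁻²`
  obtain ⟨a0, ha00, hAa⟩ : ∃ a0 : ℝ, 0 < a0 ∧ A * (2 * a0) ^ 2 = Real.exp (-2) := by
    have hsA : 0 < √A := Real.sqrt_pos.2 (by linarith)
    have he0 : 0 < Real.exp 1 := Real.exp_pos 1
    refine ⟨1 / (2 * Real.exp 1 * √A), by positivity, ?_⟩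
    have h2 : √A ^ 2 = A := Real.sq_sqrt (by linarith)
    have h3 : 2 * (1 / (2 * Real.exp 1 * √A)) = 1 / (Real.exp 1 * √A) := by
      field_simp
    rw [h3, div_pow, mul_pow, h2, one_pow]
    have h4 : Real.exp (-2) = 1 / Real.exp 1 ^ 2 := by
      rw [Real.exp_neg, ← Real.exp_nat_mul]
      norm_num
    rw [h4]
    field_simp
  obtain ⟨c, hc⟩ : ∃ c : ℝ, c = a0 ^ 4 / 20000 := ⟨_, rfl⟩
  have hc0 : 0 < c := by rw [hc]; positivity
  refine ⟨(a0 / 2) ^ 2, by positivity, c, hc0, fun G _ g T hSG1 hSG hT0 y h => ?_⟩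
  rw [← norm_le_zero_iff]
  refine H115.nonpos_of_gauss hc0 (C := N0 * Real.exp 2) (by positivity) fun R0 => ?_
  obtain ⟨R, hRR, D, n, ζ, u, hx, hD, hm, hζ, hζx, hue, hu1, hus, hcost⟩ :=
    h (max ⌈R0⌉₊ (max 1 ⌈14 / a0⌉₊))
  have hR1 : 1 ≤ R := (le_max_left _ _).trans ((le_max_right _ _).trans hRR)
  have hRR0 : R0 ≤ R := (Nat.le_ceil R0).trans (by exact_mod_cast (le_max_left _ _).trans hRR)
  have hRa : 14 / a0 ≤ R := (Nat.le_ceil _).trans
    (by exact_mod_cast (le_max_right _ _).trans ((le_max_right _ _).trans hRR))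
  have hR1' : (1 : ℝ) ≤ R := by exact_mod_cast hR1
  refine ⟨R, 1, hRR0, hR1', Real.one_le_exp (by positivity), ?_⟩
  choose! φ hφ hφζ hφc using fun j => exists_phase (hζ _ hx j) (hζx j)
  have hlen : ∀ i j t, ‖f i j t‖ * H174.len (T : Set G) R (g t) ≤
      ‖f i j t‖ * (H250.wl S t : ℝ) := by
    intro i j t
    by_cases ht : ∃ n, H250.IsWd S n t
    · exact mul_le_mul_of_nonneg_left (len_comap_le g S T hT0 R ht) (norm_nonneg _)
    · rw [hf0 i j t ht, norm_zero, zero_mul, zero_mul]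
  have hsum : ∀ i j, Summable fun t => ‖f i j t‖ * H174.len (T : Set G) R (g t) := fun i j =>
    Summable.of_nonneg_of_le (fun t => mul_nonneg (norm_nonneg _) (H174.len_nonneg _))
      (fun t => hlen i j t) (hf1 i j)
  have hN20 : 0 ≤ ∑ i, ∑ j, ∑' t, ‖f i j t‖ * H174.len (T : Set G) R (g t) :=
    Finset.sum_nonneg fun i _ => Finset.sum_nonneg fun j _ =>
      tsum_nonneg fun t => mul_nonneg (norm_nonneg _) (H174.len_nonneg _)
  have hN21 : ∑ i, ∑ j, ∑' t, ‖f i j t‖ * H174.len (T : Set G) R (g t) ≤ N1 :=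
    Finset.sum_le_sum fun i _ => Finset.sum_le_sum fun j _ =>
      (hsum i j).tsum_le_tsum (fun t => hlen i j t) (hf1 i j)
  have hb := tau_le_comap (S := (T : Set G)) (R := R) (φ := φ) (u := u)
    (D := D) (ζ := ζ) (δ := (a0 / 2) ^ 2) g rfl hx hm hφ hφζ (by exact_mod_cast hSG1)
    (fun s hs => by exact_mod_cast hSG s (by exact_mod_cast hs)) hR1 hu1 hD hζ hue (by positivity)
    (fun p hp s hs hps => hus p hp s (by exact_mod_cast hs) hps) f hf hsum ⌊c * R ^ 2⌋₊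
  rw [Real.sqrt_sq (by positivity : 0 ≤ a0 / 2)] at hb
  refine hb.trans (numeric hN00 hN20 hN21 ha00 (by rw [hA]; linarith) hAa hc hR1 hRa rfl
    (Finset.prod_nonneg fun j _ => (div_pos one_pos (hφ _)).le) ?_)
  rw [Finset.prod_congr rfl fun j _ => hφc j]
  exact hcost

/-- **The traces vanish at the elements over core-slow elements.** -/
theorem vanishesAt_comap {G H : Type u} [Group G] [Group H] (g : H →* G) {y : H}
    (h : CoreSlow (g y)) : VanishesAt y := by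
  classical
  intro q e he
  obtain ⟨S, f, -, h1, hS, hf, htau, hf0, hf1⟩ := H250.exists_decay_moment e he ∅
  obtain ⟨δ, hδ, ε, hε, hthr⟩ := exists_thr hf hf0 hf1
  obtain ⟨T, hT⟩ : ∃ T : Finset G, T = S.image g := ⟨_, rfl⟩
  have hT0 : ∀ s ∈ S, g s ∈ T := fun s hs => by
    rw [hT]
    exact Finset.mem_image_of_mem g hs
  have hSG1 : (1 : G) ∈ T := by
    rw [← map_one g]
    exact hT0 1 h1
  have hSG : ∀ s ∈ T, s⁻¹ ∈ T := fun s hs => by
    rw [hT] at hs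
    obtain ⟨t, ht, rfl⟩ := Finset.mem_image.1 hs
    rw [← map_inv]
    exact hT0 _ (hS t ht)
  rw [← htau]
  exact hthr G g T hSG1 hSG hT0 y (coreSlowAt_of_coreSlow h hSG1 hSG hδ hε)

theorem uvAt_of_coreSlow {G : Type u} [Group G] {x : G} (h : CoreSlow x) : UVAt x :=
  fun _ _ g y hy => vanishesAt_comap g (by rwa [hy])

end Main

end Vale.Agent.P184.AG
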